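import Vale.Agent.P181.O2.H137.Inj
import Vale.Agent.P181.O2.H244.A4

set_option autoImplicit false

/-!
# P181, O2: `A4`, closed
-/

namespace Vale.Agent.P181.O2.H137

theorem e3g : H244.E3G := H726.e3g_of injBC

/-- **`A4`** -/
theorem a4 : A4 := H244.a4_of e3g

end Vale.Agent.P181.O2.H137
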