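import Vale.Agent.P181.O2.H137.K2
import Vale.Agent.P181.O2.H352.Bridge
import Vale.Agent.P181.O2.H726.E3G

set_option autoImplicit false
set_option linter.unusedSectionVars false

/-!
# P181, O2, A4: `InjBC` from the kernel lemma K2
-/

open MvPolynomial

namespace Vale.Agent.P181.O2.H137

open Vale.Agent.P181.SZR3 (colD colD_X colD_eq exists_coeff_colD sum_single_col)
open Vale.Agent.P181.SZR4 (vm vm_injective coeff_ren)
open Vale.Agent.P181.DG6.H887 (lsub lsub_X)
open Vale.Agent.P181.TW.H312 (opL opL_nil opL_cons)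
open Vale.Agent.P181.TW.T5 (cen EE)
open Vale.Agent.P181.O2.H352 (ph SZ ph_castSucc ph_last ph_BQ ph_CQ ph_zero ph_inj pol2 exS Mv
  exists_Mv Mv_inl Mv_deg Mv_occ deg_opL)
open Vale.Agent.P181.O2.H726 (bq BQ CQ InjBC opL_smul)
open Vale.Agent.P181.O2.H244 (PR mem_PR occ)

variable {m : ℕ}

/-! ### `Q` in the columns of `G` -/

/-- `Unit` becomes `true`. -/
def ut (n : ℕ) : Unit ⊕ Fin n → Bool ⊕ Fin n := Sum.map (fun _ => true) id

lemma ut_inj (n : ℕ) : Function.Injective (ut n) := by
  rintro (x | x) (y | y) h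
  · rfl
  · simp [ut] at h
  · simp [ut] at h
  · simpa [ut] using h

/-- `Q` in the columns of `G`. -/
noncomputable def tQ {n : ℕ} (Q : MvPolynomial (Fin m × (Unit ⊕ Fin n)) ℂ) :
    MvPolynomial (Fin m × (Bool ⊕ Fin n)) ℂ := rename (vm m (ut n)) Q

lemma opL_tQ {n : ℕ} (l : List (Fin n)) (Q : MvPolynomial (Fin m × (Unit ⊕ Fin n)) ℂ) :
    opL (Sum.inl true) (l.map Sum.inr) (tQ Q) = tQ (opL (Sum.inl ()) (l.map Sum.inr) Q) := by
  induction l generalizing Q with
  | nil => rfl
  | cons j l ih =>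
    rw [List.map_cons, opL_cons, List.map_cons, opL_cons, ← ih]
    congr 1
    refine (DG4a.rn_colD (ut n) (Sum.inr j) (Sum.inl ()) (fun x hx => ?_) Q).symm
    exact ut_inj n hx

lemma bq_tQ {n k : ℕ} (A : Fin n → Fin k → ℂ) (Q : MvPolynomial (Fin m × (Unit ⊕ Fin n)) ℂ) :
    lsub m (bq A) (tQ Q) = lsub m (bq A) Q := by
  have h : (lsub m (bq A)).comp (rename (vm m (ut n))) = lsub m (bq A) := by
    apply MvPolynomial.algHom_ext
    rintro ⟨i, o⟩
    rw [AlgHom.comp_apply, rename_X, lsub_X, lsub_X]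
    cases o <;> rfl
  exact DFunLike.congr_fun h Q

lemma BQ_tQ {n : ℕ} (Q : MvPolynomial (Fin m × (Unit ⊕ Fin n)) ℂ) : BQ true (tQ Q) = BQ () Q := by
  rw [BQ, BQ, opL_tQ, bq_tQ]

/-! ### The relation in the free columns -/

lemma SM_SZ {M : ℕ} (b : Bool) (f : MvPolynomial (Fin m × (Bool ⊕ Fin M)) ℂ) :
    (SM (Sum.inl b) ((List.finRange M).map Sum.inr) : En m (Bool ⊕ Fin M)) f = SZ b f := by
  have h : (SM (Sum.inl b) ((List.finRange M).map Sum.inr) : En m (Bool ⊕ Fin M)) =
      ∑ c : Fin M, dE (Sum.inr c) (Sum.inl b) := by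
    rw [Fin.sum_univ_def, SM, List.map_map]
    rfl
  rw [h, LinearMap.sum_apply]
  rfl

lemma erase_map {σ τ : Type} [DecidableEq σ] [DecidableEq τ] {f : σ → τ}
    (hf : Function.Injective f) (l : List σ) (a : σ) : (l.map f).erase (f a) = (l.erase a).map f :=
  (List.map_erase hf l).symm

lemma BT_SZ {M : ℕ} (z v : Bool) (f : MvPolynomial (Fin m × (Bool ⊕ Fin M)) ℂ) :
    (BT (Sum.inl z) (Sum.inl v) ((List.finRange M).map Sum.inr)
      ((List.finRange M).map Sum.inr) : En m (Bool ⊕ Fin M)) f =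
      ∑ j : Fin M, opL (Sum.inl z) (((List.finRange M).erase j).map Sum.inr)
        (SZ z (colD (Sum.inr j) (Sum.inl v) (colD (Sum.inr j) (Sum.inl v) f))) := by
  have h : (BT (Sum.inl z) (Sum.inl v) ((List.finRange M).map Sum.inr)
      ((List.finRange M).map Sum.inr) : En m (Bool ⊕ Fin M)) =
      ∑ j : Fin M, PR (Sum.inl z) (((List.finRange M).erase j).map Sum.inr) *
        SM (Sum.inl z) ((List.finRange M).map Sum.inr) *
          (dE (Sum.inr j) (Sum.inl v) * dE (Sum.inr j) (Sum.inl v)) := by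
    rw [Fin.sum_univ_def, BT, List.map_map]
    congr 1
    apply List.map_congr_left
    intro j _
    rw [Function.comp_apply, erase_map Sum.inr_injective]
  rw [h, LinearMap.sum_apply]
  refine Finset.sum_congr rfl fun j _ => ?_
  rw [Module.End.mul_apply, Module.End.mul_apply, Module.End.mul_apply, SM_SZ,
    PR_opL _ (by simp), dE_apply, dE_apply]

lemma SZ_neg {M : ℕ} (b : Bool) (f : MvPolynomial (Fin m × (Bool ⊕ Fin M)) ℂ) :
    SZ b (-f) = - SZ b f := by
  rw [SZ, SZ, ← Finset.sum_neg_distrib]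
  exact Finset.sum_congr rfl fun c _ => map_neg _ _

/-- **The bridge.** -/
theorem rel_of {M : ℕ} (Q G : MvPolynomial (Fin m × (Bool ⊕ Fin (M + 1))) ℂ)
    (hQ : ∀ u, coeff u Q ≠ 0 → ∑ i, u (i, Sum.inl true) = M + 1 ∧ ∑ i, u (i, Sum.inl false) = 0)
    (hG : ∀ u, coeff u G ≠ 0 → ∑ i, u (i, Sum.inl true) = M ∧ ∑ i, u (i, Sum.inl false) = 2)
    (h : BQ true Q + CQ true false G = 0) :
    Rel (Sum.inl true) (Sum.inl false) ((List.finRange M).map Sum.inr)
      ((2 : ℂ) • ph m Bool M Q) (ph m Bool M G) := by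
  set T : Fin (M + 1) → MvPolynomial (Fin m × (Bool ⊕ Fin (M + 1))) ℂ := fun j =>
    colD (Sum.inr j) (Sum.inl false) (colD (Sum.inr j) (Sum.inl false) G) with hT
  set F : MvPolynomial (Fin m × (Bool ⊕ Fin (M + 1))) ℂ :=
    opL (Sum.inl true) ((List.finRange (M + 1)).map Sum.inr) ((2 : ℂ) • Q) +
      ∑ j, opL (Sum.inl true) (((List.finRange (M + 1)).erase j).map Sum.inr) (T j) with hF
  have hTs : ∀ j, T j = (2 : ℂ) • H726.sv false j G := by
    intro j
    rw [hT]
    beta_reduce
    rw [pol2 false j G fun u hu => (hG u hu).2, two_smul, two_mul]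
  have hF2 : F = (2 : ℂ) • (opL (Sum.inl true) ((List.finRange (M + 1)).map Sum.inr) Q +
      ∑ j, opL (Sum.inl true) (((List.finRange (M + 1)).erase j).map Sum.inr)
        (H726.sv false j G)) := by
    rw [hF, smul_add, Finset.smul_sum, opL_smul]
    congr 1
    refine Finset.sum_congr rfl fun j _ => ?_
    rw [hTs, opL_smul]
  have hF3 : lsub m (bq (cen (M + 1))) F = 0 := by
    rw [hF2, map_smul, map_add]
    have h1 : lsub m (bq (cen (M + 1)))
        (opL (Sum.inl true) ((List.finRange (M + 1)).map Sum.inr) Q) +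
        lsub m (bq (cen (M + 1))) (∑ j, opL (Sum.inl true)
          (((List.finRange (M + 1)).erase j).map Sum.inr) (H726.sv false j G)) = 0 := h
    rw [h1, smul_zero]
  have hnd : ((List.finRange (M + 1)).map (Sum.inr : Fin (M + 1) → Bool ⊕ Fin (M + 1))).Nodup :=
    (List.nodup_finRange _).map Sum.inr_injective
  have hnd' : ∀ j, (((List.finRange (M + 1)).erase j).map
      (Sum.inr : Fin (M + 1) → Bool ⊕ Fin (M + 1))).Nodup := fun j =>
    ((List.nodup_finRange _).erase j).map Sum.inr_injective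
  have hFd : ∀ u, coeff u F ≠ 0 → ∀ a : Bool, ∑ i, u (i, Sum.inl a) = 0 := by
    intro u hu
    have hvz : (Sum.inl false : Bool ⊕ Fin (M + 1)) ≠ Sum.inl true := by simp
    have key : ∑ i, u (i, Sum.inl true) = 0 ∧ ∑ i, u (i, Sum.inl false) = 0 := by
      rw [hF, coeff_add] at hu
      by_cases h1 : coeff u (opL (Sum.inl true) ((List.finRange (M + 1)).map Sum.inr)
          ((2 : ℂ) • Q)) = 0
      · rw [h1, zero_add, coeff_sum] at hu
        obtain ⟨j, -, hj⟩ := Finset.exists_ne_zero_of_sum_ne_zero hu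
        obtain ⟨w, hw, h2, h3⟩ := deg_opL _ (by simp) (hnd' j) _ u hj
        have h4 := h3 (Sum.inl false) hvz
        rw [if_neg (by simp), add_zero] at h4
        obtain ⟨i1, w1, rfl, hw1⟩ := exists_coeff_colD _ _ _ w hw
        obtain ⟨i2, w2, h6, hw2⟩ := exists_coeff_colD _ _ _ _ hw1
        obtain ⟨g1, g2⟩ := hG _ hw2
        have h8 := congrArg (fun w : Fin m × (Bool ⊕ Fin (M + 1)) →₀ ℕ =>
          ∑ i, w (i, Sum.inl true)) h6
        have h9 := congrArg (fun w : Fin m × (Bool ⊕ Fin (M + 1)) →₀ ℕ =>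
          ∑ i, w (i, Sum.inl false)) h6
        have hlen : (((List.finRange (M + 1)).erase j).map
            (Sum.inr : Fin (M + 1) → Bool ⊕ Fin (M + 1))).length = M := by
          rw [List.length_map, List.length_erase_of_mem (List.mem_finRange j),
            List.length_finRange]
          rfl
        rw [hlen] at h2
        simp only [Finsupp.add_apply, Finset.sum_add_distrib, sum_single_col] at g1 g2 h2 h4 h8 h9
        simp at g1 g2 h2 h4 h8 h9
        constructor <;> omega
      · obtain ⟨w, hw, h2, h3⟩ := deg_opL _ (by simp) hnd _ u h1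
        have h4 := h3 (Sum.inl false) hvz
        rw [if_neg (by simp), add_zero] at h4
        rw [coeff_smul] at hw
        obtain ⟨q1, q2⟩ := hQ w (right_ne_zero_of_mul hw)
        rw [List.length_map, List.length_finRange] at h2
        constructor <;> omega
    intro a
    cases a
    · exact key.2
    · exact key.1
  have h0 := ph_zero F hFd hF3
  rw [hF, map_add, ph_BQ, ph_CQ] at h0
  have hlast : ph m Bool M (T (Fin.last M)) = SZ false (SZ false (ph m Bool M G)) := by
    rw [hT]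
    beta_reduce
    rw [ph_last, ph_last, SZ_neg, neg_neg]
  have hcast : ∀ j : Fin M, ph m Bool M (T j.castSucc) =
      colD (Sum.inr j) (Sum.inl false) (colD (Sum.inr j) (Sum.inl false) (ph m Bool M G)) := by
    intro j
    rw [hT]
    beta_reduce
    rw [ph_castSucc, ph_castSucc]
  rw [hlast, map_smul] at h0
  unfold Rel
  rw [Module.End.mul_apply, Module.End.mul_apply, Module.End.mul_apply, SM_SZ, SM_SZ, SM_SZ,
    BT_SZ, PR_opL _ (by simp), PR_opL _ (by simp)]
  have h5 : ∑ j : Fin M, opL (Sum.inl true) (((List.finRange M).erase j).map Sum.inr)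
      (SZ true (colD (Sum.inr j) (Sum.inl false) (colD (Sum.inr j) (Sum.inl false) (ph m Bool M G)))) =
      ∑ j : Fin M, opL (Sum.inl true) (((List.finRange M).erase j).map Sum.inr)
        (SZ true (ph m Bool M (T j.castSucc))) :=
    Finset.sum_congr rfl fun j _ => by rw [hcast j]
  rw [h5]
  linear_combination -h0

/-! ### Degrees in the free columns -/

lemma few_ph {M h x : ℕ} (f : MvPolynomial (Fin m × (Bool ⊕ Fin (M + 1))) ℂ)
    (hf : ∀ u, coeff u f ≠ 0 → ∑ i, u (i, Sum.inl true) = x ∧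
      (∀ j : Fin (M + 1), ∑ i, u (i, Sum.inr j) < h + 1) ∧ (occ u).card ≤ 3 * h) :
    Few (Sum.inl true) ((List.finRange M).map Sum.inr) x (4 * h + 1) (2 * h)
      (ph m Bool M f) := by
  classical
  intro u hu
  obtain ⟨w, hw, hM⟩ := exists_Mv _ f u hu
  obtain ⟨h1, h2, h3⟩ := hf w hw
  refine ⟨by rw [Mv_inl hM, h1], ?_, ?_⟩
  · intro j hj
    obtain ⟨b, -, rfl⟩ := List.mem_map.1 hj
    have h4 := Mv_deg hM b
    have h5 := h2 b.castSucc
    have h6 := h2 (Fin.last M)
    omega
  · obtain ⟨T, hT, hT2⟩ := Mv_occ hM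
    set T' : Finset (Fin M) := Finset.univ.filter fun b => ∃ i, w (i, Sum.inr b.castSucc) ≠ 0
      with hT'
    refine ⟨(T ∪ T').map ⟨Sum.inr, Sum.inr_injective⟩, ?_, ?_⟩
    · rw [Finset.card_map]
      have h4 := Finset.card_union_le T T'
      have h5 : T'.card ≤ (occ w).card := by
        rw [← Finset.card_map ⟨Fin.castSucc, Fin.castSucc_injective M⟩]
        refine Finset.card_le_card fun y hy => ?_
        obtain ⟨b, hb, rfl⟩ := Finset.mem_map.1 hy
        have h6 := (Finset.mem_filter.1 hb).2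
        exact Finset.mem_filter.2 ⟨Finset.mem_univ _, h6⟩
      have h6 := h2 (Fin.last M)
      omega
    · intro j hj hjT i
      obtain ⟨b, -, rfl⟩ := List.mem_map.1 hj
      by_contra hne
      apply hjT
      refine Finset.mem_map.2 ⟨b, ?_, rfl⟩
      rcases hT2 b ⟨i, hne⟩ with h4 | h4
      · exact Finset.mem_union_left _ h4
      · exact Finset.mem_union_right _ (Finset.mem_filter.2 ⟨Finset.mem_univ _, h4⟩)

lemma ph_zv {M : ℕ} (f : MvPolynomial (Fin m × (Bool ⊕ Fin (M + 1))) ℂ) :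
    ph m Bool M (colD (Sum.inl true) (Sum.inl false) f) =
      colD (Sum.inl true) (Sum.inl false) (ph m Bool M f) := by
  rw [ph, TW5.lsub_colD (exS (EE M)) (Sum.inl true) (Sum.inl false) (Sum.inl false),
    Finset.sum_eq_single (Sum.inl true)]
  · change (if true = true then (1 : ℂ) else 0) • _ = _
    rw [if_pos rfl, one_smul]
  · intro c _ hc
    cases c with
    | inl c =>
      change (if true = c then (1 : ℂ) else 0) • _ = _
      rw [if_neg (fun h => hc (by rw [h])), zero_smul]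
    | inr c =>
      change (0 : ℂ) • _ = _
      rw [zero_smul]
  · intro h'
    exact absurd (Finset.mem_univ _) h'
  · intro c
    cases c with
    | inl c =>
      change (if false = c then (1 : ℂ) else 0) = _
      by_cases h : false = c
      · simp [h]
      · rw [if_neg h, if_neg]
        intro h'
        exact h (Sum.inl_injective h').symm
    | inr c =>
      rw [if_neg (by simp)]
      rfl
  · intro o ho
    cases o with
    | inl a =>
      change (if a = false then (1 : ℂ) else 0) = 0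
      exact if_neg fun h => ho (by rw [h])
    | inr a => rfl
  · simp

/-- **`InjBC`** -/
theorem injBC : InjBC := by
  classical
  intro c h m mu hc hc2 Q G hQ hG h0
  obtain ⟨-, q2, -, q4, -⟩ := mem_PR.1 hQ
  obtain ⟨-, g2, -, g4, g5⟩ := mem_PR.1 hG
  -- the degrees
  have hQd : ∀ u, coeff u (tQ Q) ≠ 0 → ∑ i, u (i, Sum.inl true) = c + 1 ∧
      ∑ i, u (i, Sum.inl false) = 0 ∧ (∀ j : Fin (c + 1), ∑ i, u (i, Sum.inr j) < h + 1) ∧
      (occ u).card ≤ 3 * h := by
    intro u hu
    obtain ⟨w, hw, hw1, hw2⟩ := coeff_ren (ut_inj (c + 1)) hu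
    obtain ⟨d1, d2, d3⟩ := q2 w hw
    have e1 : ∀ i, u (i, Sum.inl true) = w (i, Sum.inl ()) := fun i => hw1 i (Sum.inl ())
    have e2 : ∀ i j, u (i, Sum.inr j) = w (i, Sum.inr j) := fun i j => hw1 i (Sum.inr j)
    refine ⟨?_, Finset.sum_eq_zero fun i _ => hw2 i _ ?_, fun j => ?_, ?_⟩
    · rw [Finset.sum_congr rfl fun i _ => e1 i]
      exact d1 ()
    · rintro ⟨x | x, hx⟩
      · simp [ut] at hx
      · simp [ut] at hx
    · rw [Finset.sum_congr rfl fun i _ => e2 i j]
      exact d2 j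
    · have e3 : occ u = occ w := by
        ext j
        simp only [occ, Finset.mem_filter, Finset.mem_univ, true_and]
        constructor
        · rintro ⟨i, hi⟩
          exact ⟨i, by rwa [e2] at hi⟩
        · rintro ⟨i, hi⟩
          exact ⟨i, by rwa [← e2] at hi⟩
      rw [e3]
      exact d3
  have hGd : ∀ u, coeff u G ≠ 0 → ∑ i, u (i, Sum.inl true) = c ∧
      ∑ i, u (i, Sum.inl false) = 2 := by
    intro u hu
    have d1 := (g2 u hu).1
    exact ⟨by simpa using d1 true, by simpa using d1 false⟩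
  have hrel := rel_of (tQ Q) G (fun u hu => ⟨(hQd u hu).1, (hQd u hu).2.1⟩) hGd (by
    rw [BQ_tQ]
    exact h0)
  have hlen : ((List.finRange c).map (Sum.inr : Fin c → Bool ⊕ Fin c)).length = c := by
    rw [List.length_map, List.length_finRange]
  -- `Few`
  have hFQ : Few (Sum.inl true) ((List.finRange c).map (Sum.inr : Fin c → Bool ⊕ Fin c))
      (((List.finRange c).map (Sum.inr : Fin c → Bool ⊕ Fin c)).length + 1) (4 * h + 1) (2 * h)
      ((2 : ℂ) • ph m Bool c (tQ Q)) := by
    rw [hlen]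
    intro u hu
    rw [coeff_smul] at hu
    exact few_ph (tQ Q) (fun u hu => ⟨(hQd u hu).1, (hQd u hu).2.2⟩) u (right_ne_zero_of_mul hu)
  have hFG : Few (Sum.inl true) ((List.finRange c).map (Sum.inr : Fin c → Bool ⊕ Fin c))
      ((List.finRange c).map (Sum.inr : Fin c → Bool ⊕ Fin c)).length (4 * h + 1) (2 * h)
      (ph m Bool c G) := by
    rw [hlen]
    exact few_ph G fun u hu => ⟨(hGd u hu).1, (g2 u hu).2⟩
  have hG2 : ∀ u, coeff u (ph m Bool c G) ≠ 0 → ∑ i, u (i, Sum.inl false) = 2 := by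
    intro u hu
    obtain ⟨w, hw, hM⟩ := exists_Mv _ G u hu
    rw [Mv_inl hM]
    exact (hGd w hw).2
  have hzv : colD (Sum.inl true) (Sum.inl false) (ph m Bool c G) = 0 := by
    have h1 : colD (Sum.inl true) (Sum.inl false) G = 0 := by
      rw [colD_eq]
      exact g5 (true, false) rfl
    rw [← ph_zv, h1, map_zero]
  obtain ⟨r1, r2⟩ := K2 (B := 4 * h + 1) (D := 2 * h) (by simp)
    ((List.nodup_finRange c).map Sum.inr_injective) (by simp) (by simp) (by omega)
    (by rw [hlen]; omega) hFQ hFG hG2 hzv hrel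
  constructor
  · have h1 : ph m Bool c (tQ Q) = 0 := (smul_eq_zero.1 r1).resolve_left two_ne_zero
    have h2 : tQ Q = 0 := by
      refine ph_inj _ (fun i => ?_) h1
      have h3 : ∀ j : Fin (c + 1), pderiv (i, (Sum.inr j : Bool ⊕ Fin (c + 1))) (tQ Q) =
          rename (vm m (ut (c + 1))) (pderiv (i, Sum.inr j) Q) := fun j =>
        pderiv_rename (vm_injective (m := m) (ut_inj (c + 1))) (i, Sum.inr j) Q
      rw [Finset.sum_congr rfl fun j _ => h3 j, ← map_sum, q4 i, map_zero]
    exact rename_injective _ (vm_injective (m := m) (ut_inj (c + 1))) (by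
      rw [map_zero]
      exact h2)
  · exact ph_inj _ g4 r2

end Vale.Agent.P181.O2.H137
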