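import Vale.Agent.P181.O2.H137.Rel
import Vale.Agent.P181.O2.H352.Tools

set_option autoImplicit false
set_option linter.unusedSectionVars false

/-!
# P181, O2: the kernel lemma K2 (helper137)
-/

open MvPolynomial

namespace Vale.Agent.P181.O2.H137

open Vale.Agent.P181.SZR3 (colD colD_X colD_eq colD_colD)
open Vale.Agent.P181.TW.H312 (opL opL_nil opL_cons)
open Vale.Agent.P181.TW.T5 (coeff_kill')
open Vale.Agent.P181.O2.H352 (QB Om Om_zero Om_colD Om_colD' Om_inj pderiv_colD pderiv_comm'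
  inj_all)

variable {m : ℕ} {σ : Type} [Fintype σ] [DecidableEq σ]

/-! ### Permutations of the list -/

lemma PR_perm {z : σ} {l l' : List σ} (h : l.Perm l') (hz : z ∉ l) :
    (PR z l : En m σ) = PR z l' := by
  induction h with
  | nil => rfl
  | cons x _ ih => rw [PR_cons, PR_cons, ih (fun h => hz (List.mem_cons_of_mem _ h))]
  | swap x y l =>
    have hx : x ≠ z := fun h => hz (by simp [h])
    have hy : y ≠ z := fun h => hz (by simp [h])
    rw [PR_cons, PR_cons, PR_cons, PR_cons, ← mul_assoc, ← mul_assoc, (comm_dE hy hx).eq]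
  | trans h1 _ ih1 ih2 => rw [ih1 hz, ih2 (fun h => hz (h1.mem_iff.2 h))]

lemma SM_perm {z : σ} {l l' : List σ} (h : l.Perm l') : (SM z l : En m σ) = SM z l' :=
  (h.map _).sum_eq

lemma BT_perm {z v : σ} {l l' : List σ} (h : l.Perm l') (hz : z ∉ l) :
    (BT z v l l : En m σ) = BT z v l' l' := by
  have h1 : (BT z v l l : En m σ) = BT z v l' l := by
    rw [BT, BT]
    congr 1
    apply List.map_congr_left
    intro j _
    rw [PR_perm (h.erase j) (fun h => hz (List.mem_of_mem_erase h)), SM_perm h]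
  rw [h1]
  exact (h.map _).sum_eq

lemma rel_perm {z v : σ} {l l' : List σ} (h : l.Perm l') (hz : z ∉ l)
    {Q G : MvPolynomial (Fin m × σ) ℂ} (hr : Rel z v l Q G) : Rel z v l' Q G := by
  unfold Rel at hr ⊢
  rw [← PR_perm h hz, ← SM_perm h, ← BT_perm h hz, ← SM_perm h]
  exact hr

/-! ### Several columns set to zero -/

/-- The columns of a list are set to zero. -/
noncomputable def rL : List σ → MvPolynomial (Fin m × σ) ℂ → MvPolynomial (Fin m × σ) ℂ
  | [], f => f
  | c :: r, f => rL r (rA c f)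

@[simp] lemma rL_nil (f : MvPolynomial (Fin m × σ) ℂ) : rL [] f = f := rfl

@[simp] lemma rL_cons (c : σ) (r : List σ) (f : MvPolynomial (Fin m × σ) ℂ) :
    rL (c :: r) f = rL r (rA c f) := rfl

lemma rA_colD {a b c : σ} (ha : a ≠ c) (hb : b ≠ c) (f : MvPolynomial (Fin m × σ) ℂ) :
    rA c (colD a b f) = colD a b (rA c f) :=
  congrArg (fun T : En m σ => T f) (comm_rE_dE (m := m) ha hb).eq

lemma rel_steps {z v : σ} (hzv : z ≠ v) (M : ℕ) : ∀ (r l : List σ), (r ++ l).Nodup →
    z ∉ r ++ l → v ∉ r ++ l → (r ++ l).length ≤ M → ∀ {Q G : MvPolynomial (Fin m × σ) ℂ},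
    dE z z Q = ((M : ℂ) + 1) • Q → dE z z G = (M : ℂ) • G → Rel z v (r ++ l) Q G →
    Rel z v l (rL r Q) (rL r G) := by
  intro r
  induction r with
  | nil => intro l _ _ _ _ Q G _ _ h; exact h
  | cons c r ih =>
    intro l hnd hz hv hM Q G hQ hG h
    rw [List.cons_append] at hnd hz hv hM h
    have hzc : z ≠ c := fun h => hz (by simp [h])
    rw [List.length_cons] at hM
    have hκ : ((M : ℂ) - ((r ++ l).length : ℂ)) ≠ 0 := by
      rw [sub_ne_zero, Ne, Nat.cast_inj]
      omega
    have h1 := rel_step (κ := (M : ℂ) - ((r ++ l).length : ℂ)) hzv (List.nodup_cons.1 hnd).1 hz hv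
      hκ (by rw [hQ]; congr 1; ring) (by rw [hG]; congr 1; ring) h
    have hQ' : dE z z (rA c Q) = ((M : ℂ) + 1) • rA c Q := by
      rw [dE_apply, ← rA_colD hzc hzc, ← dE_apply, hQ, map_smul]
    have hG' : dE z z (rA c G) = (M : ℂ) • rA c G := by
      rw [dE_apply, ← rA_colD hzc hzc, ← dE_apply, hG, map_smul]
    exact ih l (List.nodup_cons.1 hnd).2 (fun h => hz (List.mem_cons_of_mem _ h))
      (fun h => hv (List.mem_cons_of_mem _ h)) (by omega) hQ' hG' h1

lemma coeff_rA (c : σ) (f : MvPolynomial (Fin m × σ) ℂ) (u : Fin m × σ →₀ ℕ)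
    (h : coeff u (rA c f) ≠ 0) : coeff u f ≠ 0 ∧ ∀ i, u (i, c) = 0 := by
  classical
  rw [rA, coeff_kill' (fun p : Fin m × σ => p.2 = c)] at h
  split_ifs at h with h1
  · exact ⟨h, fun i => h1 (i, c) rfl⟩
  · exact absurd rfl h

lemma coeff_rA' (c : σ) (f : MvPolynomial (Fin m × σ) ℂ) (u : Fin m × σ →₀ ℕ)
    (h : ∀ i, u (i, c) = 0) : coeff u (rA c f) = coeff u f := by
  classical
  rw [rA, coeff_kill' (fun p : Fin m × σ => p.2 = c), if_pos]
  rintro ⟨i, j⟩ hj
  have hj' : j = c := hj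
  rw [hj']
  exact h i

lemma coeff_rL : ∀ (r : List σ) (f : MvPolynomial (Fin m × σ) ℂ) (u : Fin m × σ →₀ ℕ),
    coeff u (rL r f) ≠ 0 → coeff u f ≠ 0 := by
  intro r
  induction r with
  | nil => intro f u h; exact h
  | cons c r ih => intro f u h; exact (coeff_rA c f u (ih _ u h)).1

lemma coeff_rL' : ∀ (r : List σ) (f : MvPolynomial (Fin m × σ) ℂ) (u : Fin m × σ →₀ ℕ),
    (∀ c ∈ r, ∀ i, u (i, c) = 0) → coeff u (rL r f) = coeff u f := by
  intro r
  induction r with
  | nil => intro f u _; rfl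
  | cons c r ih =>
    intro f u h
    rw [rL_cons, ih _ u (fun c' hc' => h c' (List.mem_cons_of_mem _ hc')),
      coeff_rA' c f u (h c (by simp))]

lemma rL_colD {z v : σ} : ∀ (r : List σ), z ∉ r → v ∉ r → ∀ (f : MvPolynomial (Fin m × σ) ℂ),
    rL r (colD z v f) = colD z v (rL r f) := by
  intro r
  induction r with
  | nil => intro _ _ f; rfl
  | cons c r ih =>
    intro hz hv f
    rw [rL_cons, rA_colD (fun h => hz (by simp [h])) (fun h => hv (by simp [h])),
      ih (fun h => hz (List.mem_cons_of_mem _ h)) (fun h => hv (List.mem_cons_of_mem _ h)), rL_cons]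

lemma rL_zero : ∀ (r : List σ), rL r (0 : MvPolynomial (Fin m × σ) ℂ) = 0 := by
  intro r
  induction r with
  | nil => rfl
  | cons c r ih => rw [rL_cons, map_zero, ih]

/-! ### The operators `∂_z ∧ ∂_u` -/

/-- `Om` as an endomorphism. -/
noncomputable def omE (z u : σ) (i k : Fin m) : En m σ :=
  pE (i, z) * pE (k, u) - pE (k, z) * pE (i, u)

lemma omE_apply (z u : σ) (i k : Fin m) (f : MvPolynomial (Fin m × σ) ℂ) :
    omE z u i k f = Om z u i k f := rfl

/-- `∂_z ∧ ∂_c` commutes with `colD j z`. -/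
lemma comm_omE {z u j : σ} (hj : j ≠ z) (i k : Fin m) :
    Commute (omE z u i k : En m σ) (dE j z) :=
  LinearMap.ext fun f => Om_colD hj i k f

lemma comm_omE_omE (z u u' : σ) (i k i' k' : Fin m) :
    Commute (omE z u i k : En m σ) (omE z u' i' k') := by
  have h : ∀ p q r s : Fin m × σ, Commute (pE p * pE q : En m σ) (pE r * pE s) := fun p q r s =>
    ((comm_pE p r).mul_right (comm_pE p s)).mul_left ((comm_pE q r).mul_right (comm_pE q s))
  exact ((h _ _ _ _).sub_right (h _ _ _ _)).sub_left ((h _ _ _ _).sub_right (h _ _ _ _))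

/-- `[∂_z ∧ ∂_c, colD c v] = ∂_z ∧ ∂_v`. -/
lemma omE_dE {z v c : σ} (hzc : z ≠ c) (i k : Fin m) :
    (omE z c i k * dE c v : En m σ) = dE c v * omE z c i k + omE z v i k := by
  refine LinearMap.ext fun f => ?_
  simp only [Module.End.mul_apply, LinearMap.add_apply, omE_apply, dE_apply]
  simp only [Om, pderiv_colD, if_neg hzc, if_true, map_add, add_zero, map_sub]
  ring

/-- `∂_z ∧ ∂_v` commutes with `colD c v`. -/
lemma comm_omE_v {z v c : σ} (hzc : z ≠ c) (hvc : v ≠ c) (i k : Fin m) :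
    Commute (omE z v i k : En m σ) (dE c v) := by
  refine LinearMap.ext fun f => ?_
  simp only [Module.End.mul_apply, omE_apply, dE_apply]
  simp only [Om, pderiv_colD, if_neg hzc, if_neg hvc, add_zero, map_sub]

lemma comm_rE_omE {z v c : σ} (hzc : z ≠ c) (hvc : v ≠ c) (i k : Fin m) :
    Commute (rE c : En m σ) (omE z v i k) :=
  ((comm_rE_pE i hzc).mul_right (comm_rE_pE k hvc)).sub_right
    ((comm_rE_pE k hzc).mul_right (comm_rE_pE i hvc))

/-- The polarized square: `ρ_c Ω' Ω V_c V_c = 2 Ω'_v Ω_v ρ_c`. -/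
lemma om_sq {z v c : σ} (hzc : z ≠ c) (hvc : v ≠ c) (i k i' k' : Fin m) :
    (rE c * (omE z c i' k' * omE z c i k) * (dE c v * dE c v) : En m σ) =
      2 * (omE z v i' k' * omE z v i k * rE c) := by
  have hV : (rE c * dE c v : En m σ) = 0 := rE_dE_self c v
  have e1 := omE_dE (m := m) (v := v) hzc i k
  have e2 := omE_dE (m := m) (v := v) hzc i' k'
  have u1 := (comm_omE_v (m := m) hzc hvc i k).eq
  have u2 := (comm_omE_v (m := m) hzc hvc i' k').eq
  have r1 := (comm_rE_omE (m := m) hzc hvc i k).eq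
  have r2 := (comm_rE_omE (m := m) hzc hvc i' k').eq
  have s1 : (omE z c i k * (dE c v * dE c v) : En m σ) =
      dE c v * (dE c v * omE z c i k + 2 * omE z v i k) := by
    rw [← mul_assoc, e1, add_mul, mul_assoc, e1, u1, mul_add, mul_add, two_mul, mul_add]
    abel
  calc (rE c * (omE z c i' k' * omE z c i k) * (dE c v * dE c v) : En m σ)
      = rE c * (omE z c i' k' * (omE z c i k * (dE c v * dE c v))) := by simp only [mul_assoc]
    _ = rE c * ((dE c v * omE z c i' k' + omE z v i' k') *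
          (dE c v * omE z c i k + 2 * omE z v i k)) := by
        rw [s1, ← mul_assoc (omE z c i' k'), e2]
    _ = rE c * dE c v * (omE z c i' k' * (dE c v * omE z c i k + 2 * omE z v i k)) +
          rE c * (omE z v i' k' * dE c v) * omE z c i k +
          2 * (rE c * omE z v i' k' * omE z v i k) := by
        rw [add_mul, mul_add, mul_add (omE z v i' k')]
        have h2 : (omE z v i' k' * (2 * omE z v i k) : En m σ) =
            2 * (omE z v i' k' * omE z v i k) := by
          rw [two_mul, mul_add, two_mul]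
        rw [h2]
        simp only [mul_add, two_mul, mul_assoc]
        abel
    _ = 2 * (omE z v i' k' * omE z v i k * rE c) := by
        rw [u2, ← mul_assoc (rE c) (dE c v), hV, zero_mul, zero_mul, zero_mul, zero_add, zero_add,
          r2, mul_assoc (omE z v i' k') (rE c) (omE z v i k), r1,
          ← mul_assoc (omE z v i' k') (omE z v i k) (rE c)]

/-! ### The bridge to `opL`, `QB` -/

lemma PR_opL {z : σ} : ∀ (l : List σ), z ∉ l → ∀ f : MvPolynomial (Fin m × σ) ℂ,
    (PR z l : En m σ) f = opL z l f := by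
  intro l
  induction l with
  | nil => intro _ f; rfl
  | cons j l ih =>
    intro hz f
    have hjz : j ≠ z := fun h => hz (by simp [h])
    have hzl : z ∉ l := fun h => hz (List.mem_cons_of_mem _ h)
    have h1 : (PR z (j :: l) : En m σ) = PR z l * dE j z := by
      rw [PR_cons]
      exact (comm_PR fun i hi => comm_dE hjz fun h : i = z => hzl (h ▸ hi)).eq
    rw [h1, Module.End.mul_apply, ih hzl, opL_cons, dE_apply]

lemma SM_QB {z : σ} : ∀ (l : List σ), l.Nodup → ∀ f : MvPolynomial (Fin m × σ) ℂ,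
    (SM z l : En m σ) f = QB z l f := by
  intro l
  induction l with
  | nil => intro _ f; simp [QB]
  | cons j l ih =>
    intro hnd f
    have hj := (List.nodup_cons.1 hnd).1
    rw [SM_cons, LinearMap.add_apply, ih (List.nodup_cons.1 hnd).2, QB, QB, List.toFinset_cons,
      Finset.sum_insert (by simpa using hj), dE_apply]

lemma PR_SM_inj {z : σ} {l : List σ} (hz : z ∉ l) (hnd : l.Nodup) (hl : 1 ≤ l.length) (D x : ℕ)
    (f : MvPolynomial (Fin m × σ) ℂ) (hx : l.length + D + 2 ≤ x)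
    (hf : ∀ u, coeff u f ≠ 0 → ∑ i, u (i, z) = x ∧ ∀ c ∈ l, ∑ i, u (i, c) ≤ D)
    (h0 : (PR z l * SM z l : En m σ) f = 0) : f = 0 := by
  refine inj_all hz hnd hl D x f hx hf ?_
  have h1 : (PR z l * SM z l : En m σ) = SM z l * PR z l := by
    refine (comm_SM fun i hi => ?_).eq
    refine (comm_PR fun j hj => ?_).symm
    exact comm_dE (fun h : i = z => hz (h ▸ hi)) fun h : j = z => hz (h ▸ hj)
  rw [h1, Module.End.mul_apply, PR_opL l hz, SM_QB l hnd] at h0
  exact h0

/-- The degrees of `Om z v i k f`. -/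
lemma deg_Om {z v : σ} (i k : Fin m) (f : MvPolynomial (Fin m × σ) ℂ)
    (u : Fin m × σ →₀ ℕ) (hu : coeff u (Om z v i k f) ≠ 0) : ∃ w, coeff w f ≠ 0 ∧
      ∀ c, ∑ j, w (j, c) = ∑ j, u (j, c) + (if z = c then 1 else 0) + if v = c then 1 else 0 := by
  have key : ∀ i k : Fin m, coeff u (pderiv (i, z) (pderiv (k, v) f)) ≠ 0 → ∃ w, coeff w f ≠ 0 ∧
      ∀ c, ∑ j, w (j, c) = ∑ j, u (j, c) + (if z = c then 1 else 0) +
        if v = c then 1 else 0 := by
    intro i k h
    rw [MvPolynomial.coeff_pderiv, MvPolynomial.coeff_pderiv] at h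
    refine ⟨u + Finsupp.single (i, z) 1 + Finsupp.single (k, v) 1,
      left_ne_zero_of_mul (left_ne_zero_of_mul h), fun c => ?_⟩
    simp only [Finsupp.add_apply, Finset.sum_add_distrib, SZR3.sum_single_col]
  by_cases h1 : coeff u (pderiv (i, z) (pderiv (k, v) f)) = 0
  · refine key k i fun h2 => hu ?_
    rw [Om, coeff_sub, h1, h2, sub_zero]
  · exact key i k h1

/-! ### `G` -/

/-- **(β), (γ)** the relation with one free column more. -/
theorem rel_kill {z v c : σ} {l : List σ} (hzv : z ≠ v) (hnd : (c :: l).Nodup)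
    (hz : z ∉ c :: l) (hv : v ∉ c :: l) (hl : 1 ≤ l.length) {M D : ℕ}
    (hM : l.length + D + 4 ≤ M) {Q G : MvPolynomial (Fin m × σ) ℂ}
    (hG : ∀ u, coeff u G ≠ 0 → ∑ i, u (i, z) = M ∧ ∑ i, u (i, v) = 2 ∧
      ∀ j ∈ l, ∑ i, u (i, j) ≤ D)
    (h0 : colD z v G = 0) (h : Rel z v (c :: l) Q G) : rA c G = 0 := by
  have hzc : z ≠ c := fun h => hz (by simp [h])
  have hvc : v ≠ c := fun h => hv (by simp [h])
  have hzl : z ∉ l := fun h => hz (List.mem_cons_of_mem _ h)
  have hvl : v ∉ l := fun h => hv (List.mem_cons_of_mem _ h)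
  have hc : c ∉ l := (List.nodup_cons.1 hnd).1
  obtain ⟨A, hA⟩ : ∃ A : En m σ, A = PR z l * SM z (c :: l) := ⟨_, rfl⟩
  obtain ⟨B, hB⟩ : ∃ B : En m σ, B = BT' z v c l := ⟨_, rfl⟩
  obtain ⟨E, hE⟩ : ∃ E : En m σ, E = PR z l * (SM v (c :: l) * SM v (c :: l)) := ⟨_, rfl⟩
  obtain ⟨H, hH⟩ : ∃ H : MvPolynomial (Fin m × σ) ℂ, H = A Q + B G - E G := ⟨_, rfl⟩
  have hVA : (A * (dE c v * dE c v) : En m σ) = dE c v * dE c v * A := by
    have h1 : Commute (dE c v : En m σ) A := by
      rw [hA]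
      refine (comm_PR fun j hj => ?_).mul_right (comm_SM fun j hj => ?_)
      · exact comm_dE (fun h => hzc h.symm) fun h : j = v => hvl (h ▸ hj)
      · exact comm_dE (fun h => hzc h.symm) fun h : j = v => hv (h ▸ hj)
    exact ((h1.mul_left h1).eq).symm
  have hrel : dE c z H + (dE c v * dE c v * A : En m σ) G = 0 := by
    unfold Rel at h
    have e1 : (PR z (c :: l) * SM z (c :: l) : En m σ) = dE c z * A := by
      rw [PR_cons, hA, mul_assoc]
    have e2 : (BT z v (c :: l) (c :: l) : En m σ) = dE c v * dE c v * A + dE c z * B := by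
      rw [BT_cons hc, ← hA, hVA, hB]
    have e3 : (PR z (c :: l) * (SM v (c :: l) * SM v (c :: l)) : En m σ) = dE c z * E := by
      rw [PR_cons, hE, mul_assoc]
    rw [e1, e2, e3, LinearMap.add_apply, Module.End.mul_apply (dE c z) A Q,
      Module.End.mul_apply (dE c z) B G, Module.End.mul_apply (dE c z) E G] at h
    rw [hH, map_sub, map_add, ← h]
    abel
  obtain ⟨g, hg⟩ : ∃ g : MvPolynomial (Fin m × σ) ℂ, g = rA c G := ⟨_, rfl⟩
  have hgd : ∀ u, coeff u g ≠ 0 → ∑ i, u (i, z) = M ∧ ∑ i, u (i, v) = 2 ∧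
      ∀ j ∈ l, ∑ i, u (i, j) ≤ D := fun u hu => hG u (coeff_rA c G u (hg ▸ hu)).1
  have hg0 : colD z v g = 0 := by
    rw [hg, ← rA_colD hzc hvc, h0, map_zero]
  -- (β)
  have hβ : ∀ i k i' k' : Fin m, Om z v i' k' (Om z v i k g) = 0 := by
    intro i k i' k'
    obtain ⟨W, hW⟩ : ∃ W : En m σ, W = rE c * (omE z c i' k' * omE z c i k) := ⟨_, rfl⟩
    have h1 : W (dE c z H) + W ((dE c v * dE c v * A : En m σ) G) = 0 := by
      rw [← map_add, hrel, map_zero]
    have h2 : W (dE c z H) = 0 := by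
      have e1 : (W * dE c z : En m σ) = 0 := by
        have hcz : c ≠ z := fun h => hzc h.symm
        have h3 := ((comm_omE (m := m) (u := c) hcz i' k').mul_left
          (comm_omE (m := m) (u := c) hcz i k)).eq
        rw [hW, mul_assoc, h3, ← mul_assoc, rE_dE_self, zero_mul]
      exact congrArg (fun T : En m σ => T H) e1
    have h3 : W ((dE c v * dE c v * A : En m σ) G) =
        (2 : ℂ) • Om z v i' k' (Om z v i k (rE c (A G))) := by
      have e1 := om_sq (m := m) hzc hvc i k i' k'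
      rw [← hW] at e1
      have e2 := congrArg (fun T : En m σ => T (A G)) e1
      simp only [Module.End.mul_apply, two_mul, LinearMap.add_apply, omE_apply] at e2
      rw [Module.End.mul_apply, Module.End.mul_apply, e2, two_smul]
    rw [h2, h3, zero_add] at h1
    have h4 : Om z v i' k' (Om z v i k (rE c (A G))) = 0 :=
      (smul_eq_zero.1 h1).resolve_left two_ne_zero
    have hRA : (rE c * A : En m σ) = PR z l * SM z l * rE c := by
      rw [hA, ← mul_assoc, rE_PR hzc hc, mul_assoc, rE_SM hzc hc, mul_assoc]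
    have e1 : rE c (A G) = (PR z l * SM z l : En m σ) g := by
      rw [hg]
      exact congrArg (fun T : En m σ => T G) hRA
    rw [e1] at h4
    -- `Om` commutes with `PR z l * SM z l`
    have hcomm : ∀ i k : Fin m, (omE z v i k * (PR z l * SM z l) : En m σ) =
        PR z l * SM z l * omE z v i k := by
      intro i k
      refine ((comm_PR fun j hj => ?_).mul_right (comm_SM fun j hj => ?_)).eq
      · exact comm_omE (fun h : j = z => hzl (h ▸ hj)) i k
      · exact comm_omE (fun h : j = z => hzl (h ▸ hj)) i k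
    have h5 : (PR z l * SM z l : En m σ) (Om z v i' k' (Om z v i k g)) = 0 := by
      have e2 := congrArg (fun T : En m σ => T g) (hcomm i k)
      have e3 := congrArg (fun T : En m σ => T (omE z v i k g)) (hcomm i' k')
      simp only [Module.End.mul_apply (omE z v i k), Module.End.mul_apply (omE z v i' k'),
        Module.End.mul_apply (PR z l * SM z l), omE_apply] at e2 e3
      rw [← e3, ← e2, h4]
    refine PR_SM_inj hzl (List.nodup_cons.1 hnd).2 hl D (M - 2) _ (by omega) (fun u hu => ?_) h5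
    obtain ⟨w, hw, hw1⟩ := deg_Om i' k' _ u hu
    obtain ⟨w', hw', hw2⟩ := deg_Om i k _ w hw
    obtain ⟨d1, d2, d3⟩ := hgd w' hw'
    refine ⟨?_, fun j hj => ?_⟩
    · have a1 := hw1 z
      have a2 := hw2 z
      rw [if_pos rfl, if_neg (Ne.symm hzv)] at a1 a2
      omega
    · have a1 := hw1 j
      have a2 := hw2 j
      have a3 := d3 j hj
      omega
  -- (γ)
  have hvz : v ≠ z := Ne.symm hzv
  have hγ1 : ∀ i k : Fin m, Om z v i k g = 0 := by
    intro i k
    refine Om_inj hvz (x := M - 1) (y := 1) le_rfl _ (fun u hu => ?_) ?_ (fun i' k' => hβ i k i' k')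
    · obtain ⟨w, hw, hw1⟩ := deg_Om i k _ u hu
      obtain ⟨d1, d2, -⟩ := hgd w hw
      have a1 := hw1 z
      have a2 := hw1 v
      rw [if_pos rfl, if_neg hvz] at a1
      rw [if_neg hzv, if_pos rfl] at a2
      constructor <;> omega
    · rw [← Om_colD' hvz, hg0, Om_zero]
  rw [← hg]
  exact Om_inj hvz (x := M) (y := 2) (by norm_num) g (fun u hu => ⟨(hgd u hu).1, (hgd u hu).2.1⟩)
    hg0 hγ1

/-! ### K2 -/

/-- The list of the free columns, seen from one monomial. -/
lemma exists_split {l : List σ} (hnd : l.Nodup) (u : Fin m × σ →₀ ℕ) {B : ℕ} (hB : 1 ≤ B)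
    (hl : B + 2 ≤ l.length) (T : Finset σ) (hT : T.card ≤ B)
    (hu : ∀ j ∈ l, j ∉ T → ∀ i, u (i, j) = 0) :
    ∃ (c : σ) (S r : List σ), l.Perm (r ++ c :: S) ∧ 1 ≤ S.length ∧ S.length ≤ B ∧
      (∀ i, u (i, c) = 0) ∧ ∀ c' ∈ r, ∀ i, u (i, c') = 0 := by
  set O := l.filter (fun j => decide (j ∈ T)) with hO
  set N := l.filter (fun j => !decide (j ∈ T)) with hN
  have hp : (O ++ N).Perm l := List.filter_append_perm _ l
  have hlen : O.length + N.length = l.length := by
    rw [← List.length_append]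
    exact hp.length_eq
  have hOB : O.length ≤ B := by
    rw [← List.toFinset_card_of_nodup (hnd.filter _)]
    refine (Finset.card_le_card fun x hx => ?_).trans hT
    have h1 := List.mem_toFinset.1 hx
    simpa using (List.mem_filter.1 h1).2
  have hNu : ∀ j ∈ N, ∀ i, u (i, j) = 0 := by
    intro j hj
    have h1 := List.mem_filter.1 hj
    exact hu j h1.1 (by simpa using h1.2)
  obtain ⟨a, b, r, hr⟩ : ∃ a b r, N = a :: b :: r := by
    match N, hlen with
    | [], h => simp at h; omega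
    | [a], h => simp at h; omega
    | a :: b :: r, _ => exact ⟨a, b, r, rfl⟩
  rw [hr] at hp hNu
  by_cases h0 : O = []
  · rw [h0] at hp
    refine ⟨b, [a], r, hp.symm.trans ?_, le_rfl, hB, hNu b (by simp),
      fun c' hc' => hNu c' (by simp [hc'])⟩
    refine List.perm_iff_count.2 fun x => ?_
    simp only [List.count_append, List.count_cons, List.count_nil]
    omega
  · refine ⟨b, O, a :: r, hp.symm.trans ?_, List.length_pos_iff.2 h0, hOB, hNu b (by simp),
      fun c' hc' => hNu c' ?_⟩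
    · refine List.perm_iff_count.2 fun x => ?_
      simp only [List.count_append, List.count_cons]
      omega
    · rcases List.mem_cons.1 hc' with h | h
      · simp [h]
      · simp [h]

/-- At most `B` of the columns of `l` occur in every monomial, each with degree `≤ D`; `z` has
degree `x`. -/
def Few (z : σ) (l : List σ) (x B D : ℕ) (f : MvPolynomial (Fin m × σ) ℂ) : Prop :=
  ∀ u, coeff u f ≠ 0 → ∑ i, u (i, z) = x ∧ (∀ j ∈ l, ∑ i, u (i, j) ≤ D) ∧
    ∃ T : Finset σ, T.card ≤ B ∧ ∀ j ∈ l, j ∉ T → ∀ i, u (i, j) = 0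

/-- **K2.** -/
theorem K2 {z v : σ} {l : List σ} (hzv : z ≠ v) (hnd : l.Nodup) (hz : z ∉ l) (hv : v ∉ l)
    {B D : ℕ} (hB : 1 ≤ B) (hl : B + D + 4 ≤ l.length) {Q G : MvPolynomial (Fin m × σ) ℂ}
    (hQ : Few z l (l.length + 1) B D Q) (hG : Few z l l.length B D G)
    (hG2 : ∀ u, coeff u G ≠ 0 → ∑ i, u (i, v) = 2)
    (h0 : colD z v G = 0) (h : Rel z v l Q G) : Q = 0 ∧ G = 0 := by
  have eQ : dE z z Q = ((l.length : ℂ) + 1) • Q := by
    rw [dE_apply, H352.euler Q fun u hu => (hQ u hu).1]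
    push_cast
    rfl
  have eG : dE z z G = (l.length : ℂ) • G := by
    rw [dE_apply, H352.euler G fun u hu => (hG u hu).1]
  have hG0 : G = 0 := by
    by_contra hne
    obtain ⟨u, hu⟩ := MvPolynomial.ne_zero_iff.1 hne
    obtain ⟨-, -, T, hT, huT⟩ := hG u hu
    obtain ⟨c, S, r, hp, hS1, hS2, hc, hr⟩ := exists_split hnd u hB (by omega) T hT huT
    have hz' : z ∉ r ++ c :: S := fun h => hz (hp.mem_iff.2 h)
    have hv' : v ∉ r ++ c :: S := fun h => hv (hp.mem_iff.2 h)
    have hnd' : (r ++ c :: S).Nodup := hp.nodup_iff.1 hnd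
    have h1 := rel_steps hzv l.length r (c :: S) hnd' hz' hv' hp.length_eq.ge eQ eG
      (rel_perm hp hz h)
    have hzr : z ∉ r := fun h => hz' (List.mem_append_left _ h)
    have hvr : v ∉ r := fun h => hv' (List.mem_append_left _ h)
    have hlS : ∀ j ∈ S, j ∈ l := fun j hj => hp.mem_iff.2 (by simp [hj])
    have h2 := rel_kill hzv (List.nodup_append.1 hnd').2.1
      (fun h => hz' (List.mem_append_right _ h)) (fun h => hv' (List.mem_append_right _ h)) hS1
      (M := l.length) (D := D) (by omega) (fun w hw => ?_) (by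
        rw [← rL_colD r hzr hvr, h0, rL_zero]) h1
    · have h3 : coeff u (rA c (rL r G)) = coeff u G := by
        rw [coeff_rA' c _ u hc, coeff_rL' r _ u hr]
      rw [h2, coeff_zero] at h3
      exact hu h3.symm
    · have hw' := coeff_rL r G w hw
      exact ⟨(hG w hw').1, hG2 w hw', fun j hj => (hG w hw').2.1 j (hlS j hj)⟩
  refine ⟨?_, hG0⟩
  by_contra hne
  obtain ⟨u, hu⟩ := MvPolynomial.ne_zero_iff.1 hne
  obtain ⟨-, -, T, hT, huT⟩ := hQ u hu
  obtain ⟨c, S, r, hp, hS1, hS2, hc, hr⟩ := exists_split hnd u hB (by omega) T hT huT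
  have hp' : l.Perm ((r ++ [c]) ++ S) := by simpa using hp
  have hz' : z ∉ (r ++ [c]) ++ S := fun h => hz (hp'.mem_iff.2 h)
  have hv' : v ∉ (r ++ [c]) ++ S := fun h => hv (hp'.mem_iff.2 h)
  have hnd' : ((r ++ [c]) ++ S).Nodup := hp'.nodup_iff.1 hnd
  have h1 := rel_steps hzv l.length (r ++ [c]) S hnd' hz' hv' hp'.length_eq.ge eQ eG
    (rel_perm hp' hz h)
  rw [hG0, rL_zero] at h1
  unfold Rel at h1
  rw [map_zero, map_zero, add_zero, sub_zero] at h1
  have hlS : ∀ j ∈ S, j ∈ l := fun j hj => hp.mem_iff.2 (by simp [hj])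
  have h2 := PR_SM_inj (fun h => hz' (List.mem_append_right _ h)) (List.nodup_append.1 hnd').2.1
    hS1 D (l.length + 1) _ (by omega) (fun w hw => ?_) h1
  · have h3 : coeff u (rL (r ++ [c]) Q) = coeff u Q := by
      refine coeff_rL' _ _ u fun c' hc' => ?_
      rcases List.mem_append.1 hc' with h | h
      · exact hr c' h
      · rw [List.mem_singleton.1 h]
        exact hc
    rw [h2, coeff_zero] at h3
    exact hu h3.symm
  · have hw' := coeff_rL _ Q w hw
    exact ⟨(hQ w hw').1, fun j hj => (hQ w hw').2.1 j (hlS j hj)⟩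

end Vale.Agent.P181.O2.H137
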