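import Vale.Agent.P181.TW.T4

set_option autoImplicit false

/-!
# P181, O2: the kernel lemma K2 (helper137): operators

`z`, `v` are two columns, `c` runs over the free centred columns.
-/

open MvPolynomial

namespace Vale.Agent.P181.O2.H137

open Vale.Agent.P181.SZR3 (colD colD_X colD_eq colD_colD)

variable {m : ℕ} {σ : Type} [Fintype σ] [DecidableEq σ]

/-- The endomorphisms. -/
abbrev En (m : ℕ) (σ : Type) := Module.End ℂ (MvPolynomial (Fin m × σ) ℂ)

/-- `colD` as an endomorphism. -/
noncomputable def dE (a c : σ) : En m σ := (colD a c).toLinearMap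

omit [Fintype σ] in
@[simp] lemma dE_apply (a c : σ) (f : MvPolynomial (Fin m × σ) ℂ) : dE a c f = colD a c f := rfl

/-- The partial derivative as an endomorphism. -/
noncomputable def pE (p : Fin m × σ) : En m σ := (pderiv (R := ℂ) p).toLinearMap

omit [Fintype σ] [DecidableEq σ] in
@[simp] lemma pE_apply (p : Fin m × σ) (f : MvPolynomial (Fin m × σ) ℂ) :
    pE p f = pderiv p f := rfl

omit [Fintype σ] in
lemma comm_dE {a b a' b' : σ} (h1 : a ≠ b') (h2 : a' ≠ b) :
    Commute (dE a b : En m σ) (dE a' b') := by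
  have h : ⁅(colD a b : Derivation ℂ (MvPolynomial (Fin m × σ) ℂ) (MvPolynomial (Fin m × σ) ℂ)),
      (colD a' b' : Derivation ℂ (MvPolynomial (Fin m × σ) ℂ) (MvPolynomial (Fin m × σ) ℂ))⁆ = 0 := by
    apply derivation_ext
    rintro ⟨k, l⟩
    rw [Derivation.commutator_apply, colD_X, colD_X, Derivation.zero_apply]
    have e1 : colD a b (if (k, l).2 = b' then X (k, a') else 0 : MvPolynomial (Fin m × σ) ℂ) = 0 := by
      split_ifs
      · rw [colD_X, if_neg h2]
      · rw [map_zero]
    have e2 : colD a' b' (if (k, l).2 = b then X (k, a) else 0 : MvPolynomial (Fin m × σ) ℂ) = 0 := by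
      split_ifs
      · rw [colD_X, if_neg h1]
      · rw [map_zero]
    rw [e1, e2, sub_zero]
  refine LinearMap.ext fun f => ?_
  have h3 := congrArg (fun D => D f) h
  simp only [Derivation.commutator_apply, Derivation.zero_apply] at h3
  exact sub_eq_zero.1 h3

omit [Fintype σ] in
/-- `[∂_(p,a), colD j b] = [a = j] ∂_(p,b)`. -/
lemma pE_dE (p : Fin m) (a j b : σ) :
    (pE (p, a) * dE j b : En m σ) = dE j b * pE (p, a) + (if a = j then pE (p, b) else 0) := by
  have h : ⁅(pderiv (R := ℂ) (p, a) : Derivation ℂ (MvPolynomial (Fin m × σ) ℂ)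
      (MvPolynomial (Fin m × σ) ℂ)), (colD j b : Derivation ℂ (MvPolynomial (Fin m × σ) ℂ)
      (MvPolynomial (Fin m × σ) ℂ))⁆ = if a = j then pderiv (R := ℂ) (p, b) else 0 := by
    apply derivation_ext
    rintro ⟨k, l⟩
    rw [Derivation.commutator_apply, colD_X]
    have e2 : colD j b (pderiv (R := ℂ) (p, a) (X (k, l) : MvPolynomial (Fin m × σ) ℂ)) = 0 := by
      rw [SZR3.pderiv_X']
      split_ifs
      · exact Derivation.map_one_eq_zero _
      · rw [map_zero]
    rw [e2, sub_zero]
    by_cases hl : l = b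
    · rw [if_pos hl, SZR3.pderiv_X']
      by_cases ha : a = j
      · rw [if_pos ha, SZR3.pderiv_X']
        by_cases hk : k = p
        · simp [hk, ha, hl]
        · simp [hk]
      · rw [if_neg ha, Derivation.zero_apply, if_neg (fun h => ha (by simpa using (congrArg Prod.snd h).symm))]
    · rw [if_neg hl, map_zero]
      by_cases ha : a = j
      · rw [if_pos ha, SZR3.pderiv_X', if_neg (fun h => hl (by simpa using congrArg Prod.snd h))]
      · rw [if_neg ha, Derivation.zero_apply]
  refine LinearMap.ext fun f => ?_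
  have h3 := congrArg (fun D => D f) h
  simp only [Derivation.commutator_apply] at h3
  rw [sub_eq_iff_eq_add] at h3
  simp only [Module.End.mul_apply, pE_apply, dE_apply, LinearMap.add_apply]
  rw [h3, add_comm]
  congr 1
  split_ifs <;> rfl

omit [Fintype σ] [DecidableEq σ] in
lemma comm_pE (p q : Fin m × σ) : Commute (pE p : En m σ) (pE q) := by
  refine LinearMap.ext fun f => ?_
  exact pderiv_pderiv_comm' f
where
  pderiv_pderiv_comm' (f : MvPolynomial (Fin m × σ) ℂ) :
      pderiv p (pderiv q f) = pderiv q (pderiv p f) := by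
    classical
    have h : ⁅(pderiv (R := ℂ) p : Derivation ℂ (MvPolynomial (Fin m × σ) ℂ)
        (MvPolynomial (Fin m × σ) ℂ)), (pderiv (R := ℂ) q : Derivation ℂ
        (MvPolynomial (Fin m × σ) ℂ) (MvPolynomial (Fin m × σ) ℂ))⁆ = 0 := by
      apply derivation_ext
      intro k
      rw [Derivation.commutator_apply, SZR3.pderiv_X', SZR3.pderiv_X']
      split_ifs <;> simp
    have h3 := congrArg (fun D => D f) h
    simp only [Derivation.commutator_apply, Derivation.zero_apply] at h3
    exact sub_eq_zero.1 h3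

/-- Column `c` is set to zero. -/
noncomputable def rA (c : σ) : MvPolynomial (Fin m × σ) ℂ →ₐ[ℂ] MvPolynomial (Fin m × σ) ℂ :=
  aeval fun p => if p.2 = c then 0 else X p

/-- The same, as an endomorphism. -/
noncomputable def rE (c : σ) : En m σ := (rA c).toLinearMap

omit [Fintype σ] in
@[simp] lemma rE_apply (c : σ) (f : MvPolynomial (Fin m × σ) ℂ) : rE c f = rA c f := rfl

omit [Fintype σ] in
lemma rA_X (c : σ) (p : Fin m × σ) :
    rA c (X p : MvPolynomial (Fin m × σ) ℂ) = if p.2 = c then 0 else X p := by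
  rw [rA, aeval_X]

lemma rE_dE_self (c b : σ) : (rE c * dE c b : En m σ) = 0 := by
  refine LinearMap.ext fun f => ?_
  simp only [Module.End.mul_apply, rE_apply, dE_apply, LinearMap.zero_apply]
  rw [colD_eq, map_sum]
  apply Finset.sum_eq_zero
  intro i _
  rw [map_mul, rA_X, if_pos rfl, zero_mul]

omit [Fintype σ] in
lemma comm_rE_dE {a b c : σ} (ha : a ≠ c) (hb : b ≠ c) : Commute (rE c : En m σ) (dE a b) := by
  refine LinearMap.ext fun f => ?_
  simp only [Module.End.mul_apply, rE_apply, dE_apply]
  induction f using MvPolynomial.induction_on with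
  | C r => simp [rA]
  | add f g hf hg => rw [map_add, map_add, hf, hg, map_add, map_add]
  | mul_X f p hf =>
    rw [Derivation.leibniz, map_add, map_mul, Derivation.leibniz, smul_eq_mul, smul_eq_mul,
      map_mul, map_mul, hf, smul_eq_mul, smul_eq_mul]
    congr 2
    rw [colD_X, rA_X]
    by_cases h1 : p.2 = b
    · have h2 : p.2 ≠ c := fun h => hb (h1 ▸ h)
      rw [if_pos h1, if_neg h2, rA_X, if_neg ha, colD_X, if_pos h1]
    · rw [if_neg h1, map_zero]
      split_ifs
      · rw [map_zero]
      · rw [colD_X, if_neg h1]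

omit [Fintype σ] in
lemma comm_rE_pE {c a : σ} (p : Fin m) (ha : a ≠ c) : Commute (rE c : En m σ) (pE (p, a)) := by
  refine LinearMap.ext fun f => ?_
  simp only [Module.End.mul_apply, rE_apply, pE_apply]
  induction f using MvPolynomial.induction_on with
  | C r => simp [rA]
  | add f g hf hg => rw [map_add, map_add, hf, hg, map_add, map_add]
  | mul_X f q hf =>
    rw [Derivation.leibniz, map_add, map_mul, Derivation.leibniz, smul_eq_mul, smul_eq_mul,
      map_mul, map_mul, hf, smul_eq_mul, smul_eq_mul]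
    congr 2
    rw [SZR3.pderiv_X', rA_X]
    by_cases h1 : q = (p, a)
    · have h2 : q.2 ≠ c := by rw [h1]; exact ha
      rw [if_pos h1, if_neg h2, SZR3.pderiv_X', if_pos h1, map_one]
    · rw [if_neg h1, map_zero]
      split_ifs
      · rw [map_zero]
      · rw [SZR3.pderiv_X', if_neg h1]

/-- `rho_c colD z c colD c z = rho_c colD z z`. -/
lemma lin_P {z c : σ} (hzc : z ≠ c) : (rE c * dE z c * dE c z : En m σ) = rE c * dE z z := by
  refine LinearMap.ext fun f => ?_
  have h1 := colD_colD (Ne.symm hzc) f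
  have h2 := congrArg (fun T : En m σ => T (colD z c f)) (rE_dE_self c z)
  have h3 := congrArg (fun T : En m σ => T f) (rE_dE_self c c)
  simp only [Module.End.mul_apply, rE_apply, dE_apply, LinearMap.zero_apply] at h2 h3 ⊢
  rw [h1, map_sub, map_add, h2, h3, zero_add, sub_zero]

/-- `[colD z c, colD c v] = colD z v`. -/
lemma dE_dE_mid {z v c : σ} (hzv : z ≠ v) :
    (dE z c * dE c v : En m σ) = dE c v * dE z c + dE z v := by
  have h : ⁅(colD z c : Derivation ℂ (MvPolynomial (Fin m × σ) ℂ) (MvPolynomial (Fin m × σ) ℂ)),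
      (colD c v : Derivation ℂ (MvPolynomial (Fin m × σ) ℂ) (MvPolynomial (Fin m × σ) ℂ))⁆ =
      colD z v := by
    apply derivation_ext
    rintro ⟨k, l⟩
    rw [Derivation.commutator_apply, colD_X, colD_X, colD_X]
    have e2 : colD c v (if (k, l).2 = c then X (k, z) else 0 : MvPolynomial (Fin m × σ) ℂ) = 0 := by
      split_ifs
      · rw [colD_X, if_neg hzv]
      · rw [map_zero]
    rw [e2, sub_zero]
    by_cases hl' : l = v
    · rw [if_pos hl', if_pos hl', colD_X, if_pos rfl]
    · rw [if_neg hl', if_neg hl', map_zero]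
  refine LinearMap.ext fun f => ?_
  have h3 := congrArg (fun D => D f) h
  simp only [Derivation.commutator_apply] at h3
  rw [sub_eq_iff_eq_add] at h3
  simp only [Module.End.mul_apply, dE_apply, LinearMap.add_apply]
  rw [h3, add_comm]

lemma lin_V {z v c : σ} (hzv : z ≠ v) (hzc : z ≠ c) (hvc : v ≠ c) :
    (rE c * dE z c * (dE c v * dE c v) : En m σ) = 0 := by
  have h1 : (rE c * dE z c * (dE c v * dE c v) : En m σ) =
      rE c * (dE z c * dE c v) * dE c v := by
    simp only [mul_assoc]
  rw [h1, dE_dE_mid hzv, mul_add, add_mul, ← mul_assoc, rE_dE_self, zero_mul, zero_mul, zero_add,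
    (comm_rE_dE hzc hvc).eq, mul_assoc, rE_dE_self, mul_zero]

end Vale.Agent.P181.O2.H137
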