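import Vale.Agent.P181.O2.H137.Ops

set_option autoImplicit false
set_option linter.unusedSectionVars false

/-!
# P181, O2: the kernel lemma K2 (helper137): the relation and the removal of a column
-/

open MvPolynomial

namespace Vale.Agent.P181.O2.H137

open Vale.Agent.P181.SZR3 (colD colD_X colD_eq colD_colD)

variable {m : ℕ} {σ : Type} [Fintype σ] [DecidableEq σ]

/-- `P_1 ⋯ P_M`. -/
noncomputable def PR (z : σ) (l : List σ) : En m σ := (l.map fun j => dE j z).prod

/-- `∑ j, colD j b`. -/
noncomputable def SM (b : σ) (l : List σ) : En m σ := (l.map fun j => dE j b).sum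

/-- The terms `v := q_j`, `j ∈ l`. -/
noncomputable def BT (z v : σ) (L l : List σ) : En m σ :=
  (l.map fun j => PR z (L.erase j) * SM z L * (dE j v * dE j v)).sum

/-- The relation. -/
def Rel (z v : σ) (l : List σ) (Q G : MvPolynomial (Fin m × σ) ℂ) : Prop :=
  (PR z l * SM z l : En m σ) Q + (BT z v l l : En m σ) G -
    (PR z l * (SM v l * SM v l) : En m σ) G = 0

@[simp] lemma PR_nil (z : σ) : (PR z [] : En m σ) = 1 := rfl

@[simp] lemma PR_cons (z c : σ) (l : List σ) : (PR z (c :: l) : En m σ) = dE c z * PR z l := by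
  simp [PR]

@[simp] lemma SM_nil (z : σ) : (SM z [] : En m σ) = 0 := rfl

@[simp] lemma SM_cons (z c : σ) (l : List σ) : (SM z (c :: l) : En m σ) = dE c z + SM z l := by
  simp [SM]

lemma comm_PR {T : En m σ} {z : σ} {l : List σ} (h : ∀ j ∈ l, Commute T (dE j z)) :
    Commute T (PR z l) := by
  apply Commute.list_prod_right
  intro x hx
  obtain ⟨j, hj, rfl⟩ := List.mem_map.1 hx
  exact h j hj

lemma comm_SM {T : En m σ} {b : σ} {l : List σ} (h : ∀ j ∈ l, Commute T (dE j b)) :
    Commute T (SM b l) := by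
  apply Commute.list_sum_right
  intro x hx
  obtain ⟨j, hj, rfl⟩ := List.mem_map.1 hx
  exact h j hj

/-- `T` lowers the degree in the column `z` by `n`. -/
def Wt (z : σ) (n : ℕ) (T : En m σ) : Prop := dE z z * T = T * (dE z z - (n : En m σ))

lemma Wt.mul {z : σ} {n n' : ℕ} {T T' : En m σ} (h : Wt z n T) (h' : Wt z n' T') :
    Wt z (n + n') (T * T') := by
  unfold Wt at *
  have hc : (n : En m σ) * T' = T' * (n : En m σ) := (Nat.cast_commute n T').eq
  rw [← mul_assoc, h, mul_assoc, sub_mul, h', hc, mul_assoc, ← mul_sub]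
  push_cast
  congr 2
  abel

lemma Wt.add {z : σ} {n : ℕ} {T T' : En m σ} (h : Wt z n T) (h' : Wt z n T') :
    Wt z n (T + T') := by
  unfold Wt at *
  rw [mul_add, add_mul, h, h']

lemma Wt.zero {z : σ} {n : ℕ} : Wt z n (0 : En m σ) := by
  unfold Wt
  rw [mul_zero, zero_mul]

lemma Wt.one {z : σ} : Wt z 0 (1 : En m σ) := by
  unfold Wt
  rw [mul_one, one_mul, Nat.cast_zero, sub_zero]

lemma Wt.listSum {z : σ} {n : ℕ} {l : List (En m σ)} (h : ∀ T ∈ l, Wt z n T) :
    Wt z n l.sum := by
  induction l with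
  | nil => exact Wt.zero
  | cons T l ih =>
    rw [List.sum_cons]
    exact (h T (by simp)).add (ih fun T' hT' => h T' (by simp [hT']))

lemma wt_dE {z j : σ} (hj : j ≠ z) : Wt z 1 (dE j z : En m σ) := by
  have h : ⁅(colD z z : Derivation ℂ (MvPolynomial (Fin m × σ) ℂ) (MvPolynomial (Fin m × σ) ℂ)),
      (colD j z : Derivation ℂ (MvPolynomial (Fin m × σ) ℂ) (MvPolynomial (Fin m × σ) ℂ))⁆ =
      - colD j z := by
    apply derivation_ext
    rintro ⟨k, l⟩
    rw [Derivation.commutator_apply, colD_X, colD_X, Derivation.neg_apply, colD_X]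
    by_cases hl : l = z
    · rw [if_pos hl, if_pos hl, colD_X, if_neg hj, colD_X, if_pos rfl, zero_sub]
    · rw [if_neg hl, if_neg hl, map_zero, map_zero, sub_zero, neg_zero]
  refine LinearMap.ext fun f => ?_
  have h3 := congrArg (fun D => D f) h
  simp only [Derivation.commutator_apply, Derivation.neg_apply] at h3
  simp only [Module.End.mul_apply, dE_apply, LinearMap.sub_apply, Nat.cast_one,
    Module.End.one_apply, map_sub]
  rw [sub_eq_iff_eq_add] at h3
  rw [h3]
  abel

lemma wt_of_comm {z : σ} {T : En m σ} (h : Commute (dE z z) T) : Wt z 0 T := by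
  unfold Wt
  rw [h.eq, Nat.cast_zero, sub_zero]

lemma wt_PR {z : σ} : ∀ {l : List σ}, z ∉ l → Wt z l.length (PR z l : En m σ) := by
  intro l
  induction l with
  | nil => exact fun _ => Wt.one
  | cons c l ih =>
    intro hz
    rw [PR_cons, List.length_cons, add_comm]
    exact (wt_dE fun h => hz (by simp [h])).mul (ih fun h => hz (by simp [h]))

lemma wt_SM {z : σ} {l : List σ} (hz : z ∉ l) : Wt z 1 (SM z l : En m σ) := by
  apply Wt.listSum
  intro T hT
  obtain ⟨j, hj, rfl⟩ := List.mem_map.1 hT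
  exact wt_dE fun h => hz (h ▸ hj)

lemma wt_SM' {z v : σ} (hzv : z ≠ v) {l : List σ} (hz : z ∉ l) :
    Wt z 0 (SM v l : En m σ) := by
  apply wt_of_comm
  apply comm_SM
  intro j hj
  exact comm_dE hzv fun h => hz (h ▸ hj)

/-- Eigenvectors. -/
lemma eig {z : σ} {n : ℕ} {T : En m σ} (hT : Wt z n T) {κ : ℂ}
    {f : MvPolynomial (Fin m × σ) ℂ} (hf : dE z z f = κ • f) :
    dE z z (T f) = (κ - n) • T f := by
  have h1 := congrArg (fun S : En m σ => S f) hT
  simp only [Module.End.mul_apply, LinearMap.sub_apply] at h1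
  rw [h1, hf, map_sub, LinearMap.map_smul, sub_smul]
  congr 1
  rw [Module.End.natCast_apply, map_nsmul, Nat.cast_smul_eq_nsmul]

lemma rE_SM {c z : σ} (hcz : z ≠ c) {l : List σ} (hc : c ∉ l) :
    (rE c * SM z (c :: l) : En m σ) = SM z l * rE c := by
  rw [SM_cons, mul_add, rE_dE_self, zero_add]
  exact (comm_SM fun j hj => comm_rE_dE (fun h : j = c => hc (h ▸ hj)) hcz).eq

lemma rE_PR {c z : σ} (hcz : z ≠ c) {l : List σ} (hc : c ∉ l) :
    (rE c * PR z l : En m σ) = PR z l * rE c :=
  (comm_PR fun j hj => comm_rE_dE (fun h : j = c => hc (h ▸ hj)) hcz).eq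

/-- The terms of `BT` without the column `c`. -/
noncomputable def BT' (z v c : σ) (l : List σ) : En m σ :=
  (l.map fun j => PR z (l.erase j) * SM z (c :: l) * (dE j v * dE j v)).sum

lemma mul_listSum {ι : Type} (T : En m σ) (l : List ι) (f : ι → En m σ) :
    T * (l.map f).sum = (l.map fun j => T * f j).sum := by
  rw [← List.sum_map_mul_left]

lemma listSum_mul {ι : Type} (T : En m σ) (l : List ι) (f : ι → En m σ) :
    (l.map f).sum * T = (l.map fun j => f j * T).sum := by
  rw [← List.sum_map_mul_right]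

lemma BT_cons {z v c : σ} {l : List σ} (hc : c ∉ l) :
    (BT z v (c :: l) (c :: l) : En m σ) =
      PR z l * SM z (c :: l) * (dE c v * dE c v) + dE c z * BT' z v c l := by
  rw [BT, List.map_cons, List.sum_cons, List.erase_cons_head, BT', mul_listSum]
  congr 2
  apply List.map_congr_left
  intro j hj
  have hcj : c ≠ j := fun h => hc (h ▸ hj)
  rw [List.erase_cons_tail (by simpa using hcj), PR_cons]
  simp only [mul_assoc]

lemma rE_BT' {z v c : σ} {l : List σ} (hcz : z ≠ c) (hcv : v ≠ c) (hc : c ∉ l) :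
    (rE c * BT' z v c l : En m σ) = BT z v l l * rE c := by
  rw [BT', BT, mul_listSum, listSum_mul]
  congr 1
  apply List.map_congr_left
  intro j hj
  have hcj : j ≠ c := fun h => hc (h ▸ hj)
  have h1 : (rE c * (dE j v * dE j v) : En m σ) = dE j v * dE j v * rE c := by
    have h := comm_rE_dE (m := m) (c := c) (a := j) (b := v) hcj hcv
    rw [← mul_assoc, h.eq, mul_assoc, h.eq, mul_assoc]
  have hce : c ∉ l.erase j := fun h => hc (List.mem_of_mem_erase h)
  calc (rE c * (PR z (l.erase j) * SM z (c :: l) * (dE j v * dE j v)) : En m σ)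
      = rE c * PR z (l.erase j) * SM z (c :: l) * (dE j v * dE j v) := by
        simp only [mul_assoc]
    _ = PR z (l.erase j) * (rE c * SM z (c :: l)) * (dE j v * dE j v) := by
        rw [rE_PR hcz hce]
        simp only [mul_assoc]
    _ = PR z (l.erase j) * SM z l * (rE c * (dE j v * dE j v)) := by
        rw [rE_SM hcz hc]
        simp only [mul_assoc]
    _ = _ := by
        rw [h1]
        simp only [mul_assoc]

/-- **(α)** one column less. -/
theorem rel_step {z v c : σ} {l : List σ} (hzv : z ≠ v) (hc : c ∉ l) (hz : z ∉ c :: l)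
    (hv : v ∉ c :: l) {κ : ℂ} (hκ : κ ≠ 0) {Q G : MvPolynomial (Fin m × σ) ℂ}
    (hQ : dE z z Q = (κ + l.length + 1) • Q) (hG : dE z z G = (κ + l.length) • G)
    (h : Rel z v (c :: l) Q G) : Rel z v l (rA c Q) (rA c G) := by
  have hzc : z ≠ c := fun h => hz (by simp [h])
  have hvc : v ≠ c := fun h => hv (by simp [h])
  have hzl : z ∉ l := fun h => hz (by simp [h])
  have hvl : v ∉ l := fun h => hv (by simp [h])
  obtain ⟨A, hA⟩ : ∃ A : En m σ, A = PR z l * SM z (c :: l) := ⟨_, rfl⟩
  obtain ⟨B, hB⟩ : ∃ B : En m σ, B = BT' z v c l := ⟨_, rfl⟩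
  obtain ⟨D, hD⟩ : ∃ D : En m σ, D = PR z l * (SM v (c :: l) * SM v (c :: l)) := ⟨_, rfl⟩
  obtain ⟨H, hH⟩ : ∃ H : MvPolynomial (Fin m × σ) ℂ, H = A Q + B G - D G := ⟨_, rfl⟩
  -- the relation
  have hVA : (A * (dE c v * dE c v) : En m σ) = dE c v * dE c v * A := by
    have h1 : Commute (dE c v : En m σ) A := by
      rw [hA]
      refine (comm_PR fun j hj => ?_).mul_right (comm_SM fun j hj => ?_)
      · exact comm_dE (fun h => hzc h.symm) fun h : j = v => hvl (h ▸ hj)
      · exact comm_dE (fun h => hzc h.symm) fun h : j = v => hv (h ▸ hj)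
    exact ((h1.mul_left h1).eq).symm
  have hrel : dE c z H + (dE c v * dE c v * A : En m σ) G = 0 := by
    unfold Rel at h
    have e1 : (PR z (c :: l) * SM z (c :: l) : En m σ) = dE c z * A := by
      rw [PR_cons, hA, mul_assoc]
    have e2 : (BT z v (c :: l) (c :: l) : En m σ) = dE c v * dE c v * A + dE c z * B := by
      rw [BT_cons hc, ← hA, hVA, hB]
    have e3 : (PR z (c :: l) * (SM v (c :: l) * SM v (c :: l)) : En m σ) = dE c z * D := by
      rw [PR_cons, hD, mul_assoc]
    rw [e1, e2, e3, LinearMap.add_apply, Module.End.mul_apply (dE c z) A Q,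
      Module.End.mul_apply (dE c z) B G, Module.End.mul_apply (dE c z) D G] at h
    rw [hH, map_sub, map_add, ← h]
    abel
  -- apply `rE c * dE z c`
  have h1 : (rE c * dE z c : En m σ) (dE c z H) +
      (rE c * dE z c : En m σ) ((dE c v * dE c v * A : En m σ) G) = 0 := by
    rw [← map_add, hrel, map_zero]
  have h2 : (rE c * dE z c : En m σ) (dE c z H) = rE c (dE z z H) := by
    have h5 := congrArg (fun T : En m σ => T H) (lin_P (m := m) hzc)
    exact h5
  have h3 : (rE c * dE z c : En m σ) ((dE c v * dE c v * A : En m σ) G) = 0 := by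
    have h5 := congrArg (fun T : En m σ => T (A G)) (lin_V (m := m) hzv hzc hvc)
    exact h5
  rw [h2, h3, add_zero] at h1
  -- the eigenvalue
  have wA : Wt z (l.length + 1) A := by
    rw [hA]
    exact (wt_PR hzl).mul (wt_SM hz)
  have wB : Wt z l.length B := by
    rw [hB, BT']
    apply Wt.listSum
    intro T hT
    obtain ⟨j, hj, rfl⟩ := List.mem_map.1 hT
    have hlen : (l.erase j).length + 1 = l.length := by
      rw [List.length_erase_of_mem hj]
      have := List.length_pos_of_mem hj
      omega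
    have w1 : Wt z (l.erase j).length (PR z (l.erase j) : En m σ) :=
      wt_PR fun h => hzl (List.mem_of_mem_erase h)
    have w2 : Wt z 0 (dE j v * dE j v : En m σ) := by
      have hjz : j ≠ z := fun h => hzl (h ▸ hj)
      have hc2 : Commute (dE z z : En m σ) (dE j v) := comm_dE hzv hjz
      exact wt_of_comm (hc2.mul_right hc2)
    have w3 := (w1.mul (wt_SM (m := m) hz)).mul w2
    rw [hlen] at w3
    exact w3
  have wD : Wt z l.length D := by
    rw [hD]
    have w3 := (wt_PR (m := m) hzl).mul ((wt_SM' (m := m) hzv hz).mul (wt_SM' (m := m) hzv hz))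
    simpa only [add_zero] using w3
  have hEH : dE z z H = κ • H := by
    have e1 := eig wA hQ
    have e2 := eig wB hG
    have e3 := eig wD hG
    have k1 : κ + l.length + 1 - ((l.length + 1 : ℕ) : ℂ) = κ := by
      push_cast
      ring
    have k2 : κ + l.length - ((l.length : ℕ) : ℂ) = κ := by ring
    rw [k1] at e1
    rw [k2] at e2 e3
    rw [hH, map_sub, map_add, e1, e2, e3, smul_sub, smul_add]
  rw [hEH, map_smul] at h1
  have h4 : rE c H = 0 := (smul_eq_zero.1 h1).resolve_left hκ
  -- the new relation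
  have hRA : (rE c * A : En m σ) = PR z l * SM z l * rE c := by
    rw [hA, ← mul_assoc, rE_PR hzc hc, mul_assoc, rE_SM hzc hc, mul_assoc]
  have hRD : (rE c * D : En m σ) = PR z l * (SM v l * SM v l) * rE c := by
    rw [hD, ← mul_assoc, rE_PR hzc hc, mul_assoc, ← mul_assoc (rE c), rE_SM hvc hc, mul_assoc,
      rE_SM hvc hc]
    simp only [mul_assoc]
  have e1 : rE c (A Q) = (PR z l * SM z l : En m σ) (rE c Q) :=
    congrArg (fun T : En m σ => T Q) hRA
  have e2 : rE c (B G) = (BT z v l l : En m σ) (rE c G) := by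
    rw [hB]
    exact congrArg (fun T : En m σ => T G) (rE_BT' (m := m) hzc hvc hc)
  have e3 : rE c (D G) = (PR z l * (SM v l * SM v l) : En m σ) (rE c G) :=
    congrArg (fun T : En m σ => T G) hRD
  rw [hH, map_sub, map_add, e1, e2, e3] at h4
  exact h4

end Vale.Agent.P181.O2.H137
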